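import Mathlib
import Crest.Prelude.Def_Diamond

set_option autoImplicit false

namespace Crest.Agent.Helper12

open Crest.AnalysisR

/-! ### Graph facts about the countably branching diamonds -/

/-- An old vertex of `D (k+1)`. -/
def vOld {k : ℕ} (u : DiamondVertex k) : DiamondVertex (k + 1) := Sum.inl u

/-- A middle vertex of `D (k+1)`. -/
def vMid {k : ℕ} (e : DiamondEdge k) (i : ℕ) : DiamondVertex (k + 1) := Sum.inr (e, i)

/-- An edge of `D (k+1)`. -/
def eMk {k : ℕ} (e : DiamondEdge k) (i : ℕ) (b : Bool) : DiamondEdge (k + 1) := (e, i, b)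

theorem vOld_injective {k : ℕ} : Function.Injective (vOld (k := k)) := fun _ _ h => Sum.inl.inj h

theorem vMid_inj {k : ℕ} {e e' : DiamondEdge k} {i i' : ℕ} (h : vMid e i = vMid e' i') :
    e = e' ∧ i = i' := by
  have := Sum.inr.inj h
  exact ⟨congrArg Prod.fst this, congrArg Prod.snd this⟩

theorem vOld_ne_vMid {k : ℕ} (u : DiamondVertex k) (e : DiamondEdge k) (i : ℕ) :
    vOld u ≠ vMid e i := fun h => Sum.inl_ne_inr h

theorem vMid_ne_vOld {k : ℕ} (u : DiamondVertex k) (e : DiamondEdge k) (i : ℕ) :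
    vMid e i ≠ vOld u := fun h => Sum.inr_ne_inl h

theorem vertex_cases {k : ℕ} (w : DiamondVertex (k + 1)) :
    (∃ u, w = vOld u) ∨ ∃ e i, w = vMid e i := by
  rcases (show DiamondVertex k ⊕ (DiamondEdge k × ℕ) from w) with u | ⟨e, i⟩
  · exact Or.inl ⟨u, rfl⟩
  · exact Or.inr ⟨e, i, rfl⟩

theorem edge_cases {k : ℕ} (e' : DiamondEdge (k + 1)) : ∃ e i b, e' = eMk e i b := by
  obtain ⟨e, i, b⟩ := (show DiamondEdge k × ℕ × Bool from e')
  exact ⟨e, i, b, rfl⟩

theorem src_eMk_false {k : ℕ} (e : DiamondEdge k) (i : ℕ) :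
    diamondSrc (k + 1) (eMk e i false) = vOld (diamondSrc k e) := rfl

theorem src_eMk_true {k : ℕ} (e : DiamondEdge k) (i : ℕ) :
    diamondSrc (k + 1) (eMk e i true) = vMid e i := rfl

theorem tgt_eMk_false {k : ℕ} (e : DiamondEdge k) (i : ℕ) :
    diamondTgt (k + 1) (eMk e i false) = vMid e i := rfl

theorem tgt_eMk_true {k : ℕ} (e : DiamondEdge k) (i : ℕ) :
    diamondTgt (k + 1) (eMk e i true) = vOld (diamondTgt k e) := rfl

theorem diamondSrc_ne_tgt : ∀ (k : ℕ) (e : DiamondEdge k), diamondSrc k e ≠ diamondTgt k e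
  | 0, _ => Bool.false_ne_true
  | k + 1, e' => by
    obtain ⟨e, i, b, rfl⟩ := edge_cases e'
    cases b
    · rw [src_eMk_false, tgt_eMk_false]; exact vOld_ne_vMid _ _ _
    · rw [src_eMk_true, tgt_eMk_true]; exact vMid_ne_vOld _ _ _

theorem diamond_adj_iff (k : ℕ) (u v : DiamondVertex k) :
    (diamondGraph k).Adj u v ↔
      ∃ e : DiamondEdge k, (diamondSrc k e = u ∧ diamondTgt k e = v) ∨
        (diamondSrc k e = v ∧ diamondTgt k e = u) := by
  unfold diamondGraph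
  rw [SimpleGraph.fromRel_adj]
  constructor
  · rintro ⟨-, ⟨e, h1, h2⟩ | ⟨e, h1, h2⟩⟩
    · exact ⟨e, Or.inl ⟨h1, h2⟩⟩
    · exact ⟨e, Or.inr ⟨h1, h2⟩⟩
  · rintro ⟨e, ⟨h1, h2⟩ | ⟨h1, h2⟩⟩
    · exact ⟨by rw [← h1, ← h2]; exact diamondSrc_ne_tgt k e, Or.inl ⟨e, h1, h2⟩⟩
    · exact ⟨by rw [← h1, ← h2]; exact (diamondSrc_ne_tgt k e).symm, Or.inr ⟨e, h1, h2⟩⟩

theorem diamond_adj_src_tgt (k : ℕ) (e : DiamondEdge k) :
    (diamondGraph k).Adj (diamondSrc k e) (diamondTgt k e) :=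
  (diamond_adj_iff k _ _).2 ⟨e, Or.inl ⟨rfl, rfl⟩⟩

/-- In `D (k+1)`, the old vertex `src e` is adjacent to each middle vertex `(e, i)`. -/
theorem diamond_adj_src_mid (k : ℕ) (e : DiamondEdge k) (i : ℕ) :
    (diamondGraph (k + 1)).Adj (vOld (diamondSrc k e)) (vMid e i) :=
  diamond_adj_src_tgt (k + 1) (eMk e i false)

/-- In `D (k+1)`, each middle vertex `(e, i)` is adjacent to the old vertex `tgt e`. -/
theorem diamond_adj_mid_tgt (k : ℕ) (e : DiamondEdge k) (i : ℕ) :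
    (diamondGraph (k + 1)).Adj (vMid e i) (vOld (diamondTgt k e)) :=
  diamond_adj_src_tgt (k + 1) (eMk e i true)

theorem diamond_not_adj_mid_mid (k : ℕ) (e e' : DiamondEdge k) (i i' : ℕ) :
    ¬ (diamondGraph (k + 1)).Adj (vMid e i) (vMid e' i') := by
  rw [diamond_adj_iff]
  rintro ⟨e'', h⟩
  obtain ⟨e₀, i₀, b, rfl⟩ := edge_cases e''
  cases b
  · rw [src_eMk_false, tgt_eMk_false] at h
    rcases h with ⟨h1, -⟩ | ⟨h1, -⟩ <;> exact vOld_ne_vMid _ _ _ h1
  · rw [src_eMk_true, tgt_eMk_true] at h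
    rcases h with ⟨-, h1⟩ | ⟨-, h1⟩ <;> exact vOld_ne_vMid _ _ _ h1

theorem diamond_not_adj_old_old (k : ℕ) (u v : DiamondVertex k) :
    ¬ (diamondGraph (k + 1)).Adj (vOld u) (vOld v) := by
  rw [diamond_adj_iff]
  rintro ⟨e'', h⟩
  obtain ⟨e₀, i₀, b, rfl⟩ := edge_cases e''
  cases b
  · rw [src_eMk_false, tgt_eMk_false] at h
    rcases h with ⟨-, h1⟩ | ⟨-, h1⟩ <;> exact vMid_ne_vOld _ _ _ h1
  · rw [src_eMk_true, tgt_eMk_true] at h
    rcases h with ⟨h1, -⟩ | ⟨h1, -⟩ <;> exact vMid_ne_vOld _ _ _ h1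

theorem diamond_adj_old_mid (k : ℕ) (u : DiamondVertex k) (e : DiamondEdge k) (i : ℕ)
    (h : (diamondGraph (k + 1)).Adj (vOld u) (vMid e i)) :
    u = diamondSrc k e ∨ u = diamondTgt k e := by
  rw [diamond_adj_iff] at h
  obtain ⟨e'', h⟩ := h
  obtain ⟨e₀, i₀, b, rfl⟩ := edge_cases e''
  cases b
  · rw [src_eMk_false, tgt_eMk_false] at h
    rcases h with ⟨h1, h2⟩ | ⟨h1, -⟩
    · obtain ⟨rfl, -⟩ := vMid_inj h2
      exact Or.inl (vOld_injective h1).symm
    · exact absurd h1 (vOld_ne_vMid _ _ _)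
  · rw [src_eMk_true, tgt_eMk_true] at h
    rcases h with ⟨h1, -⟩ | ⟨h1, h2⟩
    · exact absurd h1 (vMid_ne_vOld _ _ _)
    · obtain ⟨rfl, -⟩ := vMid_inj h1
      exact Or.inr (vOld_injective h2).symm

/-! ### Distances -/

theorem diamondDist_src_tgt (k : ℕ) (e : DiamondEdge k) :
    diamondDist k (diamondSrc k e) (diamondTgt k e) = 1 :=
  SimpleGraph.dist_eq_one_iff_adj.2 (diamond_adj_src_tgt k e)

theorem diamondDist_of_adj (k : ℕ) {u v : DiamondVertex k} (h : (diamondGraph k).Adj u v) :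
    diamondDist k u v = 1 :=
  SimpleGraph.dist_eq_one_iff_adj.2 h

theorem reachable_old_of_adj (k : ℕ) {a b : DiamondVertex k} (h : (diamondGraph k).Adj a b) :
    (diamondGraph (k + 1)).Reachable (vOld a) (vOld b) := by
  rw [diamond_adj_iff] at h
  obtain ⟨e, ⟨rfl, rfl⟩ | ⟨rfl, rfl⟩⟩ := h
  · exact (diamond_adj_src_mid k e 0).reachable.trans (diamond_adj_mid_tgt k e 0).reachable
  · exact ((diamond_adj_src_mid k e 0).reachable.trans (diamond_adj_mid_tgt k e 0).reachable).symm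

theorem reachable_old_of_walk (k : ℕ) {a b : DiamondVertex k} (p : (diamondGraph k).Walk a b) :
    (diamondGraph (k + 1)).Reachable (vOld a) (vOld b) := by
  induction p with
  | nil => exact SimpleGraph.Reachable.refl _
  | cons h _ ih => exact (reachable_old_of_adj k h).trans ih

theorem reachable_old (k : ℕ) {a b : DiamondVertex k} (h : (diamondGraph k).Reachable a b) :
    (diamondGraph (k + 1)).Reachable (vOld a) (vOld b) := by
  obtain ⟨p⟩ := h
  exact reachable_old_of_walk k p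

/-- A potential which changes by at most one along every edge changes by at most the length
along any walk. -/
theorem walk_potential {V : Type*} (G : SimpleGraph V) (φ : V → ℤ)
    (hφ : ∀ a b, G.Adj a b → |φ a - φ b| ≤ 1) {a b : V} (p : G.Walk a b) :
    |φ a - φ b| ≤ (p.length : ℤ) := by
  induction p with
  | nil => simp
  | @cons a c b h p ih =>
    have h1 := hφ _ _ h
    have : φ a - φ b = (φ a - φ c) + (φ c - φ b) := by ring
    rw [this, SimpleGraph.Walk.length_cons]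
    push_cast
    calc |φ a - φ c + (φ c - φ b)| ≤ |φ a - φ c| + |φ c - φ b| := abs_add_le _ _
      _ ≤ 1 + (p.length : ℤ) := add_le_add h1 ih
      _ = (p.length : ℤ) + 1 := by ring

theorem dist_potential {V : Type*} (G : SimpleGraph V) (φ : V → ℤ)
    (hφ : ∀ a b, G.Adj a b → |φ a - φ b| ≤ 1) {a b : V} (h : G.Reachable a b) :
    |φ a - φ b| ≤ (G.dist a b : ℤ) := by
  obtain ⟨p, hp⟩ := h.exists_walk_length_eq_dist
  rw [← hp]
  exact walk_potential G φ hφ p

theorem adj_dist_diff {V : Type*} (G : SimpleGraph V) (u : V) {a b : V} (h : G.Adj a b) :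
    |(G.dist u a : ℤ) - (G.dist u b : ℤ)| ≤ 1 := by
  rcases h.diff_dist_adj (u := u) with h1 | h1 | h1
  · rw [h1]; simp
  · rw [h1]; push_cast; simp
  · rw [abs_le]; omega

/-- The potential on `D (k+1)` used to compare distances with `D k`. -/
noncomputable def pot {k : ℕ} (u : DiamondVertex k) : DiamondVertex (k + 1) → ℤ :=
  fun w => Sum.elim (fun w' => 2 * (diamondDist k u w' : ℤ))
    (fun p => (diamondDist k u (diamondSrc k p.1) : ℤ) + (diamondDist k u (diamondTgt k p.1) : ℤ))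
    (show DiamondVertex k ⊕ (DiamondEdge k × ℕ) from w)

theorem pot_old {k : ℕ} (u w : DiamondVertex k) : pot u (vOld w) = 2 * (diamondDist k u w : ℤ) := rfl

theorem pot_mid {k : ℕ} (u : DiamondVertex k) (e : DiamondEdge k) (i : ℕ) :
    pot u (vMid e i) =
      (diamondDist k u (diamondSrc k e) : ℤ) + (diamondDist k u (diamondTgt k e) : ℤ) := rfl

theorem pot_lipschitz {k : ℕ} (u : DiamondVertex k) (a b : DiamondVertex (k + 1))
    (h : (diamondGraph (k + 1)).Adj a b) : |pot u a - pot u b| ≤ 1 := by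
  have key : ∀ (w : DiamondVertex k) (e : DiamondEdge k) (i : ℕ),
      (diamondGraph (k + 1)).Adj (vOld w) (vMid e i) → |pot u (vOld w) - pot u (vMid e i)| ≤ 1 := by
    intro w e i hadj
    have h1 := adj_dist_diff (diamondGraph k) u (diamond_adj_src_tgt k e)
    rw [pot_old, pot_mid]
    unfold diamondDist at *
    rcases diamond_adj_old_mid k w e i hadj with rfl | rfl
    · rw [abs_le] at *; constructor <;> linarith [h1.1, h1.2]
    · rw [abs_le] at *; constructor <;> linarith [h1.1, h1.2]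
  rcases vertex_cases a with ⟨w, rfl⟩ | ⟨e, i, rfl⟩ <;> rcases vertex_cases b with ⟨w', rfl⟩ | ⟨e', i', rfl⟩
  · exact absurd h (diamond_not_adj_old_old k _ _)
  · exact key _ _ _ h
  · rw [abs_sub_comm]; exact key _ _ _ h.symm
  · exact absurd h (diamond_not_adj_mid_mid k _ _ _ _)

/-- Distances between old vertices at least double when passing from `D k` to `D (k+1)`. -/
theorem two_mul_diamondDist_le (k : ℕ) (u v : DiamondVertex k) :
    2 * diamondDist k u v ≤ diamondDist (k + 1) (vOld u) (vOld v) := by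
  by_cases hr : (diamondGraph k).Reachable u v
  · have h := dist_potential (diamondGraph (k + 1)) (pot u) (pot_lipschitz u) (reachable_old k hr)
    rw [pot_old, pot_old] at h
    have h0 : diamondDist k u u = 0 := by unfold diamondDist; simp
    rw [h0] at h
    have h2 : |(2 * ((0 : ℕ) : ℤ)) - 2 * (diamondDist k u v : ℤ)| = 2 * (diamondDist k u v : ℤ) := by
      rw [abs_sub_comm]; simp
    rw [h2] at h
    unfold diamondDist at *
    exact_mod_cast h
  · have : diamondDist k u v = 0 := SimpleGraph.dist_eq_zero_of_not_reachable hr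
    rw [this]; simp

/-- Distinct middle vertices of the same edge are at distance at least two. -/
theorem two_le_diamondDist_mid (k : ℕ) (e : DiamondEdge k) {i j : ℕ} (hij : i ≠ j) :
    2 ≤ diamondDist (k + 1) (vMid e i) (vMid e j) := by
  have hr : (diamondGraph (k + 1)).Reachable (vMid e i) (vMid e j) :=
    (diamond_adj_src_mid k e i).symm.reachable.trans (diamond_adj_src_mid k e j).reachable
  have hne : vMid e i ≠ vMid e j := fun h => hij (vMid_inj h).2
  exact hr.one_lt_dist_of_ne_of_not_adj hne (diamond_not_adj_mid_mid k _ _ _ _)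

/-! ### The analytic lemma -/

section Analytic

variable {X : Type*} [NormedAddCommGroup X] [NormedSpace ℝ X]

/-- A bounded sequence has two distinct terms whose difference is close to a given closed
finite-codimensional subspace. -/
theorem exists_close_mod (S : Submodule ℝ X) (hS : IsClosed (S : Set X))
    (hfd : FiniteDimensional ℝ (X ⧸ S)) (z : ℕ → X) (B : ℝ) (hz : ∀ i, ‖z i‖ ≤ B)
    (ε : ℝ) (hε : 0 < ε) :
    ∃ i j, i ≠ j ∧ ∃ y ∈ S, ‖(z i - z j) - y‖ < ε := by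
  have : IsClosed (S : Set X) := hS
  have : ProperSpace (X ⧸ S) := FiniteDimensional.proper_real (X ⧸ S)
  have hb : ∀ i, (Submodule.Quotient.mk (z i) : X ⧸ S) ∈ Metric.closedBall (0 : X ⧸ S) B := by
    intro i
    rw [mem_closedBall_zero_iff]
    exact (Submodule.Quotient.norm_mk_le S (z i)).trans (hz i)
  obtain ⟨a, -, φ, hφ, hlim⟩ := tendsto_subseq_of_bounded Metric.isBounded_closedBall hb
  obtain ⟨N, hN⟩ := (Metric.tendsto_atTop.1 hlim) (ε / 2) (half_pos hε)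
  refine ⟨φ N, φ (N + 1), (hφ (Nat.lt_succ_self N)).ne, ?_⟩
  have h1 := hN N le_rfl
  have h2 := hN (N + 1) (Nat.le_succ N)
  have h3 : ‖(Submodule.Quotient.mk (z (φ N) - z (φ (N + 1))) : X ⧸ S)‖ < ε := by
    rw [Submodule.Quotient.mk_sub, ← dist_eq_norm]
    calc dist (Submodule.Quotient.mk (z (φ N)) : X ⧸ S) (Submodule.Quotient.mk (z (φ (N + 1))))
        ≤ dist (Submodule.Quotient.mk (z (φ N)) : X ⧸ S) a
          + dist a (Submodule.Quotient.mk (z (φ (N + 1)))) := dist_triangle _ a _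
      _ < ε / 2 + ε / 2 := add_lt_add h1 (by rw [dist_comm]; exact h2)
      _ = ε := by ring
  obtain ⟨m, hm, hlt⟩ := Submodule.Quotient.norm_mk_lt
    (Submodule.Quotient.mk (z (φ N) - z (φ (N + 1))) : X ⧸ S) (sub_pos.2 h3)
  refine ⟨(z (φ N) - z (φ (N + 1))) - m, ?_, ?_⟩
  · rw [← Submodule.Quotient.eq]
    exact hm.symm
  · have : z (φ N) - z (φ (N + 1)) - (z (φ N) - z (φ (N + 1)) - m) = m := by abel
    rw [this]; linarith

/-- The hypothesis on the maximum-based midpoint modulus, in unbundled form. -/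
def MaxMid (X : Type*) [NormedAddCommGroup X] [NormedSpace ℝ X] : Prop :=
  ∀ t : ℝ, 0 < t → ∀ x : X, ‖x‖ = 1 → ∀ η : ℝ, 0 < η →
    ∃ S : Submodule ℝ X, IsClosed (S : Set X) ∧ FiniteDimensional ℝ (X ⧸ S) ∧
      ∀ y ∈ S, ‖y‖ = 1 →
        Real.sqrt (1 + t ^ 2 / 4) - 1 - η ≤ max ‖x + t • y‖ ‖x - t • y‖ - 1

/-- Scaled form of the maximum-based midpoint bound. -/
theorem maxMid_scaled (hmax : MaxMid X) (x : X) (hx : x ≠ 0) (ρ : ℝ) (hρ : 0 < ρ)
    (η : ℝ) (hη : 0 < η) :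
    ∃ S : Submodule ℝ X, IsClosed (S : Set X) ∧ FiniteDimensional ℝ (X ⧸ S) ∧
      ∀ y ∈ S, ‖y‖ = ρ →
        Real.sqrt (‖x‖ ^ 2 + ρ ^ 2 / 4) - η ≤ max ‖x + y‖ ‖x - y‖ := by
  have hr : 0 < ‖x‖ := norm_pos_iff.2 hx
  set r := ‖x‖ with hr_def
  have hxu : ‖r⁻¹ • x‖ = 1 := by
    rw [norm_smul, Real.norm_eq_abs, abs_of_pos (inv_pos.2 hr), ← hr_def]
    field_simp
  obtain ⟨S, hcl, hfd, hS⟩ := hmax (ρ / r) (div_pos hρ hr) (r⁻¹ • x) hxu (η / r) (div_pos hη hr)
  refine ⟨S, hcl, hfd, fun y hy hyρ => ?_⟩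
  have hyu : ‖ρ⁻¹ • y‖ = 1 := by
    rw [norm_smul, Real.norm_eq_abs, abs_of_pos (inv_pos.2 hρ), hyρ]
    field_simp
  have h := hS (ρ⁻¹ • y) (S.smul_mem _ hy) hyu
  have e1 : r⁻¹ • x + (ρ / r) • ρ⁻¹ • y = r⁻¹ • (x + y) := by
    rw [smul_smul, smul_add]
    congr 2
    field_simp
  have e2 : r⁻¹ • x - (ρ / r) • ρ⁻¹ • y = r⁻¹ • (x - y) := by
    rw [smul_smul, smul_sub]
    congr 2
    field_simp
  rw [e1, e2, norm_smul, norm_smul, Real.norm_eq_abs, abs_of_pos (inv_pos.2 hr)] at h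
  have hmaxeq : max (r⁻¹ * ‖x + y‖) (r⁻¹ * ‖x - y‖) = r⁻¹ * max ‖x + y‖ ‖x - y‖ :=
    (mul_max_of_nonneg _ _ (inv_pos.2 hr).le).symm
  rw [hmaxeq] at h
  have hsq : Real.sqrt (r ^ 2 + ρ ^ 2 / 4) = r * Real.sqrt (1 + (ρ / r) ^ 2 / 4) := by
    have : r ^ 2 + ρ ^ 2 / 4 = r ^ 2 * (1 + (ρ / r) ^ 2 / 4) := by
      field_simp
    rw [this, Real.sqrt_mul (sq_nonneg r), Real.sqrt_sq hr.le]
  rw [hsq]
  have h' : Real.sqrt (1 + (ρ / r) ^ 2 / 4) - η / r ≤ r⁻¹ * max ‖x + y‖ ‖x - y‖ := by linarith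
  have h'' := mul_le_mul_of_nonneg_left h' hr.le
  have e3 : r * (r⁻¹ * max ‖x + y‖ ‖x - y‖) = max ‖x + y‖ ‖x - y‖ := by
    field_simp
  have e4 : r * (Real.sqrt (1 + (ρ / r) ^ 2 / 4) - η / r)
      = r * Real.sqrt (1 + (ρ / r) ^ 2 / 4) - η := by
    field_simp
  rw [e3, e4] at h''
  exact h''

/-- The maximum of the norms along a symmetric segment is monotone in the parameter. -/
theorem max_norm_smul_le (x y : X) (c : ℝ) (hc0 : 0 ≤ c) (hc1 : c ≤ 1) :
    max ‖x + c • y‖ ‖x - c • y‖ ≤ max ‖x + y‖ ‖x - y‖ := by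
  have e1 : x + c • y = ((1 + c) / 2) • (x + y) + ((1 - c) / 2) • (x - y) := by
    module
  have e2 : x - c • y = ((1 - c) / 2) • (x + y) + ((1 + c) / 2) • (x - y) := by
    module
  have ha : 0 ≤ (1 + c) / 2 := by linarith
  have hb : 0 ≤ (1 - c) / 2 := by linarith
  have hA : ‖x + y‖ ≤ max ‖x + y‖ ‖x - y‖ := le_max_left _ _
  have hB : ‖x - y‖ ≤ max ‖x + y‖ ‖x - y‖ := le_max_right _ _
  apply max_le
  · rw [e1]
    calc ‖((1 + c) / 2) • (x + y) + ((1 - c) / 2) • (x - y)‖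
        ≤ ‖((1 + c) / 2) • (x + y)‖ + ‖((1 - c) / 2) • (x - y)‖ := norm_add_le _ _
      _ = (1 + c) / 2 * ‖x + y‖ + (1 - c) / 2 * ‖x - y‖ := by
          rw [norm_smul, norm_smul, Real.norm_eq_abs, Real.norm_eq_abs, abs_of_nonneg ha,
            abs_of_nonneg hb]
      _ ≤ (1 + c) / 2 * max ‖x + y‖ ‖x - y‖ + (1 - c) / 2 * max ‖x + y‖ ‖x - y‖ :=
          add_le_add (mul_le_mul_of_nonneg_left hA ha) (mul_le_mul_of_nonneg_left hB hb)
      _ = max ‖x + y‖ ‖x - y‖ := by ring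
  · rw [e2]
    calc ‖((1 - c) / 2) • (x + y) + ((1 + c) / 2) • (x - y)‖
        ≤ ‖((1 - c) / 2) • (x + y)‖ + ‖((1 + c) / 2) • (x - y)‖ := norm_add_le _ _
      _ = (1 - c) / 2 * ‖x + y‖ + (1 + c) / 2 * ‖x - y‖ := by
          rw [norm_smul, norm_smul, Real.norm_eq_abs, Real.norm_eq_abs, abs_of_nonneg ha,
            abs_of_nonneg hb]
      _ ≤ (1 - c) / 2 * max ‖x + y‖ ‖x - y‖ + (1 + c) / 2 * max ‖x + y‖ ‖x - y‖ :=
          add_le_add (mul_le_mul_of_nonneg_left hA hb) (mul_le_mul_of_nonneg_left hB ha)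
      _ = max ‖x + y‖ ‖x - y‖ := by ring

/-- Key estimate: infinitely many `σ`-separated "midpoints" `z i` within distance `L` of
both `a` and `b` force `a` and `b` to be closer than `2 L`. -/
theorem midpoint_sep_bound (hmax : MaxMid X) (a b : X) (z : ℕ → X) (L σ : ℝ) (hσ : 0 < σ)
    (h1 : ∀ i, ‖a - z i‖ ≤ L) (h2 : ∀ i, ‖z i - b‖ ≤ L)
    (h3 : ∀ i j, i ≠ j → σ ≤ ‖z i - z j‖) :
    ‖a - b‖ ^ 2 ≤ 4 * L ^ 2 - σ ^ 2 / 4 := by
  have hL : 0 ≤ L := (norm_nonneg _).trans (h1 0)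
  have hσL : σ ≤ 2 * L := by
    have := h3 0 1 (by norm_num)
    have e : z 0 - z 1 = (z 0 - b) - (z 1 - b) := by abel
    rw [e] at this
    have := norm_sub_le (z 0 - b) (z 1 - b)
    linarith [h2 0, h2 1]
  set x : X := (1 / 2 : ℝ) • (a - b) with hx_def
  have hxn : ‖x‖ = ‖a - b‖ / 2 := by
    rw [hx_def, norm_smul, Real.norm_eq_abs, abs_of_pos (by norm_num : (0 : ℝ) < 1 / 2)]
    ring
  have hab : ‖a - b‖ = 2 * ‖x‖ := by rw [hxn]; ring
  rw [hab]
  by_cases hx0 : x = 0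
  · rw [hx0, norm_zero]
    nlinarith
  -- main case
  have key : ∀ ε : ℝ, 0 < ε → ε < σ / 2 →
      Real.sqrt (‖x‖ ^ 2 + (σ / 2 - ε) ^ 2 / 4) ≤ L + 2 * ε := by
    intro ε hε hεσ
    have hρ : 0 < σ / 2 - ε := by linarith
    obtain ⟨S, hcl, hfd, hS⟩ := maxMid_scaled hmax x hx0 (σ / 2 - ε) hρ ε hε
    have hzb : ∀ i, ‖z i‖ ≤ ‖b‖ + L := by
      intro i
      have e : z i = b + (z i - b) := by abel
      calc ‖z i‖ = ‖b + (z i - b)‖ := by rw [← e]
        _ ≤ ‖b‖ + ‖z i - b‖ := norm_add_le _ _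
        _ ≤ ‖b‖ + L := by linarith [h2 i]
    obtain ⟨i, j, hij, y₀, hy₀, hclose⟩ :=
      exists_close_mod S hcl hfd z (‖b‖ + L) hzb (2 * ε) (by linarith)
    set y : X := (1 / 2 : ℝ) • y₀ with hy_def
    set y' : X := (1 / 2 : ℝ) • (z i - z j) with hy'_def
    have hyS : y ∈ S := S.smul_mem _ hy₀
    have hyy' : ‖y' - y‖ < ε := by
      rw [hy'_def, hy_def, ← smul_sub, norm_smul, Real.norm_eq_abs,
        abs_of_pos (by norm_num : (0 : ℝ) < 1 / 2)]
      linarith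
    have hy'n : σ / 2 ≤ ‖y'‖ := by
      rw [hy'_def, norm_smul, Real.norm_eq_abs, abs_of_pos (by norm_num : (0 : ℝ) < 1 / 2)]
      linarith [h3 i j hij]
    have hyn : σ / 2 - ε ≤ ‖y‖ := by
      have e : y' = y + (y' - y) := by abel
      have := norm_add_le y (y' - y)
      rw [← e] at this
      linarith
    have hynpos : 0 < ‖y‖ := lt_of_lt_of_le hρ hyn
    have hp : ‖x + y'‖ ≤ L := by
      have e : x + y' = (1 / 2 : ℝ) • ((a - z j) + (z i - b)) := by
        rw [hx_def, hy'_def]; module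
      rw [e, norm_smul, Real.norm_eq_abs, abs_of_pos (by norm_num : (0 : ℝ) < 1 / 2)]
      have := norm_add_le (a - z j) (z i - b)
      linarith [h1 j, h2 i]
    have hm : ‖x - y'‖ ≤ L := by
      have e : x - y' = (1 / 2 : ℝ) • ((a - z i) + (z j - b)) := by
        rw [hx_def, hy'_def]; module
      rw [e, norm_smul, Real.norm_eq_abs, abs_of_pos (by norm_num : (0 : ℝ) < 1 / 2)]
      have := norm_add_le (a - z i) (z j - b)
      linarith [h1 i, h2 j]
    have hp' : ‖x + y‖ ≤ L + ε := by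
      have e : x + y = (x + y') - (y' - y) := by abel
      have := norm_sub_le (x + y') (y' - y)
      rw [← e] at this
      linarith
    have hm' : ‖x - y‖ ≤ L + ε := by
      have e : x - y = (x - y') + (y' - y) := by abel
      have := norm_add_le (x - y') (y' - y)
      rw [← e] at this
      linarith
    -- rescale y to norm exactly σ/2 - ε
    set c : ℝ := (σ / 2 - ε) / ‖y‖ with hc_def
    have hc0 : 0 ≤ c := div_nonneg hρ.le hynpos.le
    have hc1 : c ≤ 1 := by rw [hc_def, div_le_one hynpos]; exact hyn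
    have hcy : ‖c • y‖ = σ / 2 - ε := by
      rw [norm_smul, Real.norm_eq_abs, abs_of_nonneg hc0, hc_def]
      field_simp
    have h4 := hS (c • y) (S.smul_mem _ hyS) hcy
    have h5 := max_norm_smul_le x y c hc0 hc1
    have h6 : max ‖x + y‖ ‖x - y‖ ≤ L + ε := max_le hp' hm'
    linarith
  -- pass to the limit ε → 0
  have hcont : Continuous (fun ε : ℝ => Real.sqrt (‖x‖ ^ 2 + (σ / 2 - ε) ^ 2 / 4) - 2 * ε) := by
    fun_prop
  have ht : Filter.Tendsto (fun ε : ℝ => Real.sqrt (‖x‖ ^ 2 + (σ / 2 - ε) ^ 2 / 4) - 2 * ε)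
      (nhdsWithin 0 (Set.Ioi 0)) (nhds (Real.sqrt (‖x‖ ^ 2 + (σ / 2 - 0) ^ 2 / 4) - 2 * 0)) :=
    (hcont.tendsto 0).mono_left nhdsWithin_le_nhds
  have hev : ∀ᶠ ε in nhdsWithin (0 : ℝ) (Set.Ioi 0),
      Real.sqrt (‖x‖ ^ 2 + (σ / 2 - ε) ^ 2 / 4) - 2 * ε ≤ L := by
    filter_upwards [Ioo_mem_nhdsGT (half_pos hσ)] with ε hε
    linarith [key ε hε.1 hε.2]
  have hlim := le_of_tendsto ht hev
  simp only [sub_zero, mul_zero] at hlim
  have hsq : ‖x‖ ^ 2 + (σ / 2) ^ 2 / 4 ≤ L ^ 2 := by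
    have h0 : 0 ≤ ‖x‖ ^ 2 + (σ / 2) ^ 2 / 4 := by positivity
    calc ‖x‖ ^ 2 + (σ / 2) ^ 2 / 4 = Real.sqrt (‖x‖ ^ 2 + (σ / 2) ^ 2 / 4) ^ 2 :=
          (Real.sq_sqrt h0).symm
      _ ≤ L ^ 2 := pow_le_pow_left₀ (Real.sqrt_nonneg _) hlim 2
  nlinarith

/-- The induction: a map of `D k` with lower scale `s` and edge lengths at most `L` has
`s ^ 2 * (1 + k / 4) ≤ L ^ 2`. -/
theorem diamond_induction (hmax : MaxMid X) :
    ∀ (k : ℕ) (f : DiamondVertex k → X) (s L : ℝ), 0 < s →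
      (∀ u v, s * (diamondDist k u v : ℝ) ≤ ‖f u - f v‖) →
      (∀ u v, (diamondGraph k).Adj u v → ‖f u - f v‖ ≤ L) →
      s ^ 2 * (1 + (k : ℝ) / 4) ≤ L ^ 2 := by
  intro k
  induction k with
  | zero =>
    intro f s L hs hlow hup
    have e : DiamondEdge 0 := ()
    have h1 := hlow (diamondSrc 0 e) (diamondTgt 0 e)
    rw [diamondDist_src_tgt] at h1
    have h2 := hup _ _ (diamond_adj_src_tgt 0 e)
    have hsL : s ≤ L := by
      have : s * ((1 : ℕ) : ℝ) = s := by simp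
      linarith
    have : s ^ 2 ≤ L ^ 2 := pow_le_pow_left₀ hs.le hsL 2
    simpa using this
  | succ k ih =>
    intro f s L hs hlow hup
    have hlow' : ∀ u v : DiamondVertex k,
        (2 * s) * (diamondDist k u v : ℝ) ≤ ‖f (vOld u) - f (vOld v)‖ := by
      intro u v
      have h := hlow (vOld u) (vOld v)
      have h2 : ((2 * diamondDist k u v : ℕ) : ℝ) ≤ (diamondDist (k + 1) (vOld u) (vOld v) : ℝ) := by
        exact_mod_cast two_mul_diamondDist_le k u v
      push_cast at h2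
      nlinarith
    have hedge : ∀ e : DiamondEdge k,
        ‖f (vOld (diamondSrc k e)) - f (vOld (diamondTgt k e))‖ ^ 2 ≤ 4 * L ^ 2 - s ^ 2 := by
      intro e
      have h := midpoint_sep_bound hmax (f (vOld (diamondSrc k e))) (f (vOld (diamondTgt k e)))
        (fun i => f (vMid e i)) L (2 * s) (by linarith)
        (fun i => hup _ _ (diamond_adj_src_mid k e i))
        (fun i => hup _ _ (diamond_adj_mid_tgt k e i))
        (fun i j hij => by
          have h := hlow (vMid e i) (vMid e j)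
          have h2 : ((2 : ℕ) : ℝ) ≤ (diamondDist (k + 1) (vMid e i) (vMid e j) : ℝ) := by
            exact_mod_cast two_le_diamondDist_mid k e hij
          push_cast at h2
          nlinarith)
      have e2 : 4 * L ^ 2 - (2 * s) ^ 2 / 4 = 4 * L ^ 2 - s ^ 2 := by ring
      rw [e2] at h
      exact h
    have hup' : ∀ u v : DiamondVertex k, (diamondGraph k).Adj u v →
        ‖f (vOld u) - f (vOld v)‖ ≤ Real.sqrt (4 * L ^ 2 - s ^ 2) := by
      intro u v hadj
      rw [diamond_adj_iff] at hadj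
      obtain ⟨e, ⟨rfl, rfl⟩ | ⟨rfl, rfl⟩⟩ := hadj
      · exact Real.le_sqrt_of_sq_le (hedge e)
      · rw [norm_sub_rev]; exact Real.le_sqrt_of_sq_le (hedge e)
    have hih := ih (fun u => f (vOld u)) (2 * s) (Real.sqrt (4 * L ^ 2 - s ^ 2)) (by linarith)
      hlow' hup'
    by_cases hnn : 0 ≤ 4 * L ^ 2 - s ^ 2
    · rw [Real.sq_sqrt hnn] at hih
      push_cast
      nlinarith
    · rw [Real.sqrt_eq_zero_of_nonpos (by linarith)] at hih
      have hk : (0 : ℝ) ≤ (k : ℝ) := Nat.cast_nonneg k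
      have : 0 < (2 * s) ^ 2 * (1 + (k : ℝ) / 4) := by positivity
      nlinarith

end Analytic

/-! ### The final statement for a bundled `RealBanach` -/

theorem maxMid_of_realBanach (E : RealBanach)
    (hmax : ∀ t : ℝ, 0 < t →
      E.MaxMidpointModulusGE E.norm t (Real.sqrt (1 + t ^ 2 / 4) - 1)) :
    @MaxMid E.X E.normed E.space := by
  let _ := E.normed
  let _ := E.space
  intro t ht x hx η hη
  obtain ⟨F, ⟨S, rfl, hcl, hfd⟩, hF⟩ := hmax t ht x hx η hη
  exact ⟨S, hcl, hfd, fun y hy hy1 => hF y hy hy1⟩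

/-- **Diamond distortion bound.** If the maximum-based midpoint modulus of the norm of `E`
is at least `√(1 + t²/4) - 1` at every `t > 0`, then every map of the depth-`k` countably
branching diamond into `E` with distortion at most `D` has `1 + k/4 ≤ D²`. -/
theorem diamond_distortion (E : RealBanach)
    (hmax : ∀ t : ℝ, 0 < t →
      E.MaxMidpointModulusGE E.norm t (Real.sqrt (1 + t ^ 2 / 4) - 1)) :
    ∀ (k : ℕ) (f : DiamondVertex k → E.X) (D : ℝ),
      E.HasDistortionLE k f D → 1 + (k : ℝ) / 4 ≤ D ^ 2 := by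
  intro k f D hD
  have hM := maxMid_of_realBanach E hmax
  let _ := E.normed
  let _ := E.space
  obtain ⟨s, hs, h⟩ := hD
  have hlow : ∀ u v, s * (diamondDist k u v : ℝ) ≤ ‖f u - f v‖ := fun u v => (h u v).1
  have hup : ∀ u v, (diamondGraph k).Adj u v → ‖f u - f v‖ ≤ D * s := by
    intro u v hadj
    have h2 := (h u v).2
    rw [diamondDist_of_adj k hadj] at h2
    simpa using h2
  have hmain := diamond_induction hM k f s (D * s) hs hlow hup
  have hs2 : 0 < s ^ 2 := by positivity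
  have : s ^ 2 * (1 + (k : ℝ) / 4) ≤ s ^ 2 * D ^ 2 := by
    calc s ^ 2 * (1 + (k : ℝ) / 4) ≤ (D * s) ^ 2 := hmain
      _ = s ^ 2 * D ^ 2 := by ring
  exact le_of_mul_le_mul_left this hs2

end Crest.Agent.Helper12
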